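import Vale.Agent.P068.Main

/-! The final reduction of `Main.lean`, with the existence of the comparator as hypothesis. -/

open Set

namespace Vale.Agent.P068

open scoped Matroid

/-- A well-founded two-sided rank on sets of naturals and a uniform comparator family. -/
def WStmt : Prop := ∃ (R : Type) (_ : LinearOrder R) (_ : WellFoundedLT R)
    (p : Set ℕ → R ⊕ R) (W : UFam (ℕ ⊕ ℕ)), (∃ r, p ∅ = Sum.inl r) ∧ (∃ r, p Set.univ = Sum.inr r) ∧
    (∀ J J' a, W.spn (enc J J') → p J = Sum.inl a → ∃ b < a, p J' = Sum.inl b) ∧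
    (∀ J J' a, W.ind (enc J J') → p J = Sum.inr a → ∃ b < a, p J' = Sum.inr b)

/-- The vertex families along the double ray admit no good orientation. -/
theorem exists_V_of (hR : WStmt) : ∃ V : ℤ → UFam (ℕ ⊕ ℕ), ∀ (J : ℤ → Set ℕ) (t : ℤ → Prop),
    (∀ k, t (k + 1) → (V (k + 1)).spn (enc (J k) (J (k + 1)))) →
    (∀ k, ¬ t (k + 1) → (V (k + 1)).ind (enc (J k) (J (k + 1)))) →
    (∀ k, t k → ¬ t (k + 1) → J k = Set.univ) → (∀ k, ¬ t k → t (k + 1) → J k = ∅) → False := by
  obtain ⟨R, i1, i2, p, W, ⟨r0, h0⟩, ⟨r1, h1⟩, hs, hi⟩ := hR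
  refine ⟨fun k => if 1 ≤ k then W else W.dual.comap (Equiv.sumComm ℕ ℕ), ?_⟩
  intro J t hP hC e1 e2
  have R1 : ∀ a k, 0 ≤ k → p (J k) = Sum.inl a → t (k + 1) → False := by
    intro a
    induction a using WellFoundedLT.induction with
    | ind a ih =>
      intro k hk ha ht
      have := hP k ht
      simp only [show 1 ≤ k + 1 by omega, if_true] at this
      obtain ⟨b, hb, e⟩ := hs _ _ _ this ha
      by_cases h2 : t (k + 1 + 1)
      · exact ih b hb (k + 1) (by omega) e h2
      · rw [e1 _ ht h2, h1] at e; cases e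
  have R2 : ∀ a k, 0 ≤ k → p (J k) = Sum.inr a → ¬ t (k + 1) → False := by
    intro a
    induction a using WellFoundedLT.induction with
    | ind a ih =>
      intro k hk ha ht
      have := hC k ht
      simp only [show 1 ≤ k + 1 by omega, if_true] at this
      obtain ⟨b, hb, e⟩ := hi _ _ _ this ha
      by_cases h2 : t (k + 1 + 1)
      · rw [e2 _ ht h2, h0] at e; cases e
      · exact ih b hb (k + 1) (by omega) e h2
  have L1 : ∀ a k, k + 1 ≤ 0 → p (J (k + 1)) = Sum.inl a → ¬ t (k + 1) → False := by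
    intro a
    induction a using WellFoundedLT.induction with
    | ind a ih =>
      intro k hk ha ht
      have := hC k ht
      simp only [show ¬ 1 ≤ k + 1 by omega, if_false] at this
      have := UFam.dual_ind.1 (UFam.comap_ind this)
      rw [swap_enc] at this
      obtain ⟨b, hb, e⟩ := hs _ _ _ this ha
      by_cases h2 : t k
      · rw [e1 _ h2 ht, h1] at e; cases e
      · exact ih b hb (k - 1) (by omega) (by simpa using e) (by simpa using h2)
  have L2 : ∀ a k, k + 1 ≤ 0 → p (J (k + 1)) = Sum.inr a → t (k + 1) → False := by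
    intro a
    induction a using WellFoundedLT.induction with
    | ind a ih =>
      intro k hk ha ht
      have := hP k ht
      simp only [show ¬ 1 ≤ k + 1 by omega, if_false] at this
      have := UFam.dual_spn.1 (UFam.comap_spn this)
      rw [swap_enc] at this
      obtain ⟨b, hb, e⟩ := hi _ _ _ this ha
      by_cases h2 : t k
      · exact ih b hb (k - 1) (by omega) (by simpa using e) (by simpa using h2)
      · rw [e2 _ h2 ht, h0] at e; cases e
  rcases hJ : p (J 0) with a | a
  · have a1 : ¬ t (0 + 1) := fun h => R1 a 0 le_rfl hJ h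
    have a2 : t 0 := by
      by_contra h
      exact L1 a (-1) (by omega) (by simpa using hJ) (by simpa using h)
    rw [e1 0 a2 a1, h1] at hJ; cases hJ
  · have a1 : t (0 + 1) := by
      by_contra h
      exact R2 a 0 le_rfl hJ h
    have a2 : ¬ t 0 := fun h => L2 a (-1) (by omega) (by simpa using hJ) (by simpa using h)
    rw [e2 0 a2 a1, h0] at hJ; cases hJ

theorem not_pc_of (hR : WStmt) : ∃ M : Fin 2 → Matroid (ℤ × ℕ), (∀ i, (M i).E = Set.univ) ∧
    ¬ HasPackingCoveringPartition M := by
  obtain ⟨V, hV⟩ := exists_V_of hR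
  choose M hE hM using exists_sum V
  refine ⟨fun i => M (i : ℕ), fun i => hE _, ?_⟩
  rintro ⟨P, C, hd, hu, S, I, hSP, hIC, hSS, hS, hI, hcov⟩
  let par : ℤ → Fin 2 := fun k => ⟨(k % 2).toNat, by omega⟩
  have hpar : ∀ k, k % 2 = ((par k : ℕ) : ℤ) % 2 := by
    intro k; simp only [par]; omega
  have hne : ∀ k, par k ≠ par (k + 1) := by
    intro k h
    have := congrArg Fin.val h
    simp only [par] at this
    omega
  have hcov' : ∀ k e, e ∈ C → e ∈ I (par k) ∨ e ∈ I (par (k + 1)) := by
    intro k e he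
    rw [← hcov] at he
    obtain ⟨i, hi⟩ := mem_iUnion.1 he
    have := hne k
    by_cases h : i = par k
    · exact Or.inl (h ▸ hi)
    · have : i = par (k + 1) := by omega
      exact Or.inr (this ▸ hi)
  have hPC : ∀ e, e ∈ P ∨ e ∈ C := fun e => (hu ▸ trivial : e ∈ P ∪ C)
  have A := fun k => pack_side (hE _) (hM _) (hSP (par k)) (hS (par k)) (hpar k)
  have B := fun k => cover_side (hE _) (hM _) hd hu (hI (par k)) (hpar k)
  refine hV (fun k => {n | (k, n) ∈ S (par (k + 1)) ∨ (k, n) ∈ I (par (k + 1))})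
    (fun k => ¬ (V k).ind (emb k ⁻¹' P)) ?_ ?_ ?_ ?_
  · intro k ht
    refine ((A _).1 ht).mono ?_
    rintro (n | n) hn
    · simp only [emb, mem_preimage, Sum.elim_inl, add_sub_cancel_right] at hn
      exact Or.inl hn
    · simp only [emb, mem_preimage, Sum.elim_inr] at hn
      rintro (h | h)
      · exact disjoint_left.1 (hSS _ _ (hne _)) hn h
      · exact disjoint_left.1 hd (hSP _ hn) (hIC _ h)
  · intro k ht
    refine ((B _).2 (not_not.1 ht)).mono ?_
    rintro (n | n) hn
    · simp only [emb, mem_preimage, Sum.elim_inl, add_sub_cancel_right]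
      rcases hn with h | h
      · exact Or.inr (hSP _ h)
      · exact Or.inl h
    · simp only [emb, mem_preimage, Sum.elim_inr]
      rcases hPC (k + 1, n) with h | h
      · exact Or.inr h
      · rcases hcov' (k + 1) _ h with h | h
        · exact Or.inl h
        · exact absurd (Or.inr h) hn
  · intro k h1 h2
    rw [eq_univ_iff_forall]
    intro n
    rcases hPC (k, n) with h | h
    · have := (A _).2 (not_not.1 h2)
        (show Sum.inl n ∈ emb (k + 1) ⁻¹' P by simpa [emb] using h)
      exact Or.inl (by simpa [emb] using this)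
    · rcases hcov' k _ h with h | h
      · have := (B _).1 h1
        exact absurd (show Sum.inr n ∈ emb k ⁻¹' I (par k) from h) (this ▸ notMem_empty _)
      · exact Or.inr h
  · intro k h1 h2
    rw [eq_empty_iff_forall_notMem]
    rintro n (h | h)
    · have := (A _).2 (not_not.1 h1) (show Sum.inr n ∈ emb k ⁻¹' P from hSP _ h)
      exact disjoint_left.1 (hSS _ _ (hne _)) this h
    · have := (B _).1 h2
      exact absurd (show Sum.inl n ∈ emb (k + 1) ⁻¹' I (par (k + 1)) by simpa [emb] using h)
        (this ▸ notMem_empty _)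

theorem not_inter_of (hR : WStmt) : ∃ M N : Matroid (ℤ × ℕ), M.E = Set.univ ∧ N.E = Set.univ ∧
    ¬ SatisfiesIntersection M N := by
  obtain ⟨V, hV⟩ := exists_V_of hR
  obtain ⟨M, hE, hM⟩ := exists_sum V 0
  obtain ⟨N, hE', hN⟩ := exists_sum (fun k => (V k).dual) 1
  refine ⟨M, N, hE, hE', ?_⟩
  rintro ⟨JM, JN, hd, h1, h2, hu⟩
  have hcl : ∀ e, e ∈ M.closure JM ∨ e ∈ N.closure JN := fun e =>
    (hu ▸ mem_univ e : e ∈ M.closure JM ∪ N.closure JN)
  have iM := h1.subset subset_union_left
  have iN := h2.subset subset_union_right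
  have cM : ∀ k, k % 2 = 0 % 2 → ¬ (V k).spn (emb k ⁻¹' JM) → ∀ x, emb k x ∈ M.closure JM →
      emb k x ∈ JM := fun k hk hs x hx =>
    (trace_closure hE hM iM hk hx).resolve_right fun h =>
      hs (UFam.spn_of_insert ((hM _).1 iM k hk) h)
  have cN : ∀ k, k % 2 = 1 % 2 → ¬ (V k).dual.spn (emb k ⁻¹' JN) → ∀ x, emb k x ∈ N.closure JN →
      emb k x ∈ JN := fun k hk hs x hx =>
    (trace_closure hE' hN iN hk hx).resolve_right fun h =>
      hs (UFam.spn_of_insert ((hN _).1 iN k hk) h)
  have fM : ∀ k, k % 2 = 0 % 2 → (V k).spn (emb k ⁻¹' JM) → ∀ x, emb k x ∈ JM ∪ JN →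
      emb k x ∈ JM := fun k hk hs x hx =>
    UFam.eq_of_spn_ind hs ((hM _).1 h1 k hk) (preimage_mono subset_union_left) hx
  have fN : ∀ k, k % 2 = 1 % 2 → (V k).dual.spn (emb k ⁻¹' JN) → ∀ x, emb k x ∈ JM ∪ JN →
      emb k x ∈ JN := fun k hk hs x hx =>
    UFam.eq_of_spn_ind hs ((hN _).1 h2 k hk) (preimage_mono subset_union_right) hx
  let J : ℤ → Set ℕ := fun k => {n | k % 2 = 1 ↔ (k, n) ∈ JM ∪ JN}
  have e0 : ∀ k, k % 2 = 1 → enc (J k) (J (k + 1)) = emb (k + 1) ⁻¹' (JM ∪ JN) := by
    intro k hk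
    have : ¬ (k + 1) % 2 = 1 := by omega
    ext (n | n) <;> simp [enc, J, emb, hk, this, or_iff_not_imp_left]
  have e1 : ∀ k, k % 2 = 0 → enc (J k) (J (k + 1)) = (emb (k + 1) ⁻¹' (JM ∪ JN))ᶜ := by
    intro k hk
    have : (k + 1) % 2 = 1 := by omega
    ext (n | n) <;> simp [enc, J, emb, hk, this]
  refine hV J (fun k => if k % 2 = 0 then (V k).spn (emb k ⁻¹' JM)
    else ¬ (V k).dual.spn (emb k ⁻¹' JN)) ?_ ?_ ?_ ?_
  · intro k ht
    by_cases hk : k % 2 = 1
    · rw [if_pos (by omega)] at ht
      rw [e0 k hk]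
      exact ht.mono (preimage_mono subset_union_left)
    · rw [e1 k (by omega)]
      exact UFam.dual_ind.1 ((hN _).1 h2 (k + 1) (by omega))
  · intro k ht
    by_cases hk : k % 2 = 1
    · rw [e0 k hk]
      exact (hM _).1 h1 (k + 1) (by omega)
    · rw [if_neg (by omega), not_not] at ht
      rw [e1 k (by omega)]
      exact UFam.dual_spn.1 (ht.mono (preimage_mono subset_union_right))
  · intro k t1 t2
    rw [eq_univ_iff_forall]
    intro n
    by_cases hk : k % 2 = 1
    · rw [if_neg (by omega)] at t1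
      rw [if_pos (by omega)] at t2
      refine ⟨fun _ => ?_, fun _ => hk⟩
      rcases hcl (k, n) with h | h
      · have := cM (k + 1) (by omega) t2 (Sum.inl n) (by simpa [emb] using h)
        exact Or.inl (by simpa [emb] using this)
      · exact Or.inr (cN k (by omega) t1 (Sum.inr n) h)
    · rw [if_pos (by omega)] at t1
      rw [if_neg (by omega), not_not] at t2
      refine ⟨fun h => absurd h hk, fun h => ?_⟩
      have a1 := fM k (by omega) t1 (Sum.inr n) h
      have a2 := fN (k + 1) (by omega) t2 (Sum.inl n) (by simpa [emb] using h)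
      exact (disjoint_left.1 hd a1 (by simpa [emb] using a2)).elim
  · intro k t1 t2
    rw [eq_empty_iff_forall_notMem]
    intro n hn
    by_cases hk : k % 2 = 1
    · rw [if_neg (by omega), not_not] at t1
      rw [if_pos (by omega)] at t2
      have h : (k, n) ∈ JM ∪ JN := hn.1 hk
      have a1 := fN k (by omega) t1 (Sum.inr n) h
      have a2 := fM (k + 1) (by omega) t2 (Sum.inl n) (by simpa [emb] using h)
      exact disjoint_left.1 hd (by simpa [emb] using a2) a1
    · rw [if_pos (by omega)] at t1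
      rw [if_neg (by omega)] at t2
      refine hk (hn.2 ?_)
      rcases hcl (k, n) with h | h
      · exact Or.inl (cM k (by omega) t1 (Sum.inr n) h)
      · have := cN (k + 1) (by omega) t2 (Sum.inl n) (by simpa [emb] using h)
        exact Or.inr (by simpa [emb] using this)

end Vale.Agent.P068
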